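import Vale.Agent.P139Z.IntA.Test

/-! Testing the first equation with the harmonic function `r^l`. -/

open Set Filter Topology MeasureTheory Complex
open scoped NNReal ENNReal ComplexConjugate ContDiff

namespace Vale.Agent.P139Z.IntA

variable {m : ℕ} {β : ℝ} {G : ℝ → ℂ} {C₀ ε ϑ ρb : ℝ} {l : ℕ} {lam : ℂ} {f g SF SG : ℝ → ℂ}
  {r : ℝ}

/-- The weight divided by the radius. -/
noncomputable def w1 (G : ℝ → ℂ) (r : ℝ) : ℝ := r ^ 10 * ‖Qr G r‖ ^ 2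

theorem wm_eq (G : ℝ → ℂ) (r : ℝ) : wm G r = r * w1 G r := by
  unfold wm w1
  ring

theorem continuous_w1 (hG : IsProfile m β G) : Continuous (w1 G) := by
  have := continuous_Qr hG
  unfold w1
  fun_prop

theorem hasDerivAt_w1 (hG : IsProfile m β G) (hr : 0 < r) (h0 : G (r ^ 2) ≠ 0) :
    HasDerivAt (w1 G) (w1 G r * ((10 + 2 * sf G (r ^ 2)) / r)) r := by
  have h1 := (hasDerivAt_wm hG hr h0).fun_div (hasDerivAt_id' r) hr.ne'
  have h2 : w1 G =ᶠ[𝓝 r] fun x => wm G x / x := by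
    filter_upwards [Ioi_mem_nhds hr] with x hx
    have : x ≠ 0 := ne_of_gt hx
    rw [wm_eq]
    field_simp
  refine (h1.congr_of_eventuallyEq h2).congr_deriv ?_
  have := hr.ne'
  rw [wm_eq]
  field_simp
  ring

theorem hasDerivAt_pw (l : ℕ) (hr : 0 < r) :
    HasDerivAt (fun x : ℝ => x ^ l) (l * r ^ l / r) r := by
  refine (hasDerivAt_pow l r).congr_deriv ?_
  have := hr.ne'
  rcases l with _ | l
  · simp
  · simp only [Nat.add_sub_cancel, pow_succ]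
    field_simp

theorem wm_le (hI : GoodInt m β G C₀ ε ϑ ρb) (hr : r ∈ Icc (0 : ℝ) 4) : wm G r ≤ 2 * 4 ^ 11 := by
  have h1 : r ^ 11 ≤ 4 ^ 11 := pow_le_pow_left₀ hr.1 hr.2 11
  have h2 := mul_le_mul h1 (q_sq_le hI hr) (by positivity) (by positivity)
  unfold wm
  linarith

theorem one_le_wm (hI : GoodInt m β G C₀ ε ϑ ρb) (h1 : 1 ≤ r) (h4 : r ≤ 4) :
    1 ≤ C₀ ^ 2 * wm G r := by
  have h2 := one_le_q_sq hI (r := r) ⟨by linarith, h4⟩
  have h3 : 1 ≤ r ^ 11 := one_le_pow₀ h1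
  have h5 := mul_le_mul h3 h2 zero_le_one (by positivity)
  unfold wm
  linarith

/-- The reduced derivative of the harmonic flux. -/
noncomputable def hI (m : ℕ) (G : ℝ → ℂ) (l : ℕ) (lam : ℂ) (f g SF SG : ℝ → ℂ) (x : ℝ) : ℂ :=
  -((2 * l * w1 G x * (deriv (Qr G) x / Qr G x).re : ℝ) : ℂ) * et G f g x
    + (((l * w1 G x * vel G x + 2 * (3 - 1 / (2 * (m : ℝ))) * wm G x : ℝ) : ℂ)
      - lam * (wm G x : ℂ)) * al G f g x
    + (wm G x : ℂ) * et G SF SG x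

/-- The reduced harmonic flux. -/
noncomputable def hF (G : ℝ → ℂ) (l : ℕ) (f g : ℝ → ℂ) (x : ℝ) : ℂ :=
  (wm G x : ℂ) * deriv (et G f g) x - (l : ℂ) * ((w1 G x : ℂ) * et G f g x)
    + ((wm G x * vel G x : ℝ) : ℂ) * al G f g x

theorem hasDerivAt_hF (hG : IsProfile m β G) (hJ : GoodInt m β G C₀ ε ϑ ρb)
    (h : RSol m β G l lam f g SF SG) (hr : 0 < r) (h4 : r ≤ 4) :
    HasDerivAt (fun x : ℝ => ((x ^ l : ℝ) : ℂ) * hF G l f g x)
      (((r ^ l : ℝ) : ℂ) * hI m G l lam f g SF SG r) r := by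
  have hr4 : r ∈ Icc (0 : ℝ) 4 := ⟨hr.le, h4⟩
  have h0 := ne0 hJ hr4
  obtain ⟨ca, ce⟩ := contDiffAt_al hG h.bf h.bg h0
  have da := (c2_facts ca).1
  have de := (c2_facts ce).1
  have de' := (c2_facts ce).2
  have dw := (hasDerivAt_wm hG hr h0).ofReal_comp
  have dw1 := (hasDerivAt_w1 hG hr h0).ofReal_comp
  have dv := (hasDerivAt_wm_vel hG hr h0).ofReal_comp
  have dp := (hasDerivAt_pw l hr).ofReal_comp
  have d := dp.fun_mul (((dw.fun_mul de').fun_sub ((dw1.fun_mul de).const_mul (l : ℂ))).fun_add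
    (dv.fun_mul da))
  refine d.congr_deriv ?_
  have e := eq_et hJ.one_le hG h hr h0
  have hr' : (r : ℂ) ≠ 0 := by exact_mod_cast hr.ne'
  rw [hI, ← e, sf_eq hG, wm_eq, Lc]
  push_cast
  field_simp
  ring

theorem contOn_hF (hG : IsProfile m β G) (hJ : GoodInt m β G C₀ ε ϑ ρb) (hf : BddC 30 f)
    (hg : BddC 30 g) : ContinuousOn (hF G l f g) (Icc 0 4) := by
  have ca := (ctl_al hG hJ hf hg).cont
  have ce := (ctl_et hG hJ hf hg).cont
  have ce' := (ctl_et hG hJ hf hg).cont'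
  have cw : ContinuousOn (fun x => (wm G x : ℂ)) (Icc 0 4) :=
    (Complex.continuous_ofReal.comp (continuous_wm hG)).continuousOn
  have cw1 : ContinuousOn (fun x => (w1 G x : ℂ)) (Icc 0 4) :=
    (Complex.continuous_ofReal.comp (continuous_w1 hG)).continuousOn
  have cv : ContinuousOn (fun x => ((wm G x * vel G x : ℝ) : ℂ)) (Icc 0 4) :=
    Complex.continuous_ofReal.comp_continuousOn
      ((continuous_wm hG).continuousOn.mul (contOn_vel hG hJ))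
  exact ((cw.mul ce').sub (continuousOn_const.mul (cw1.mul ce))).add (cv.mul ca)

theorem contOn_hI (hG : IsProfile m β G) (hJ : GoodInt m β G C₀ ε ϑ ρb) (hf : BddC 30 f)
    (hg : BddC 30 g) (hSF : Continuous SF) (hSG : Continuous SG) :
    ContinuousOn (hI m G l lam f g SF SG) (Icc 0 4) := by
  have ca := (ctl_al hG hJ hf hg).cont
  have ce := (ctl_et hG hJ hf hg).cont
  have cs := contOn_et hG hJ hSF hSG
  have cw := (continuous_wm hG).continuousOn (s := Icc 0 4)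
  have cw1 := (continuous_w1 hG).continuousOn (s := Icc 0 4)
  have cv := contOn_vel hG hJ
  have h1 : ContinuousOn (fun x => deriv (Qr G) x / Qr G x) (Icc 0 4) :=
    (continuous_dQr hG).continuousOn.div (continuous_Qr hG).continuousOn
      (fun x hx => ne0 hJ hx)
  have h2 : ContinuousOn (fun x => (deriv (Qr G) x / Qr G x).re) (Icc 0 4) :=
    Complex.continuous_re.comp_continuousOn h1
  have h3 : ContinuousOn
      (fun x => ((2 * l * w1 G x * (deriv (Qr G) x / Qr G x).re : ℝ) : ℂ)) (Icc 0 4) :=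
    Complex.continuous_ofReal.comp_continuousOn ((continuousOn_const.mul cw1).mul h2)
  have h4 : ContinuousOn (fun x =>
      ((l * w1 G x * vel G x + 2 * (3 - 1 / (2 * (m : ℝ))) * wm G x : ℝ) : ℂ)) (Icc 0 4) :=
    Complex.continuous_ofReal.comp_continuousOn
      (((continuousOn_const.mul cw1).mul cv).add (continuousOn_const.mul cw))
  have h5 : ContinuousOn (fun x => (wm G x : ℂ)) (Icc 0 4) :=
    Complex.continuous_ofReal.comp_continuousOn cw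
  exact ((h3.neg.mul ce).add ((h4.sub (continuousOn_const.mul h5)).mul ca)).add (h5.mul cs)

theorem hI_le (hG : IsProfile m β G) (hJ : GoodInt m β G C₀ ε ϑ ρb) {K κ : ℝ} (hl : (l : ℝ) ≤ K)
    (hlam : ‖lam‖ ≤ K) (hr : r ∈ Icc (0 : ℝ) 4) (hκ : ‖deriv (Qr G) r‖ ≤ κ) :
    ‖hI m G l lam f g SF SG r‖ ≤ K * κ * (r ^ 10 * (‖f r‖ + ‖g r‖))
      + (K * (1 / 2 + 4 * C₀ ^ 2) + 6 + K) * (wm G r * ‖al G f g r‖)
      + 2 * 4 ^ 11 * ‖et G SF SG r‖ := by
  have r0 := hr.1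
  have h0 := ne0 hJ hr
  have hq : 0 < ‖Qr G r‖ := norm_pos_iff.mpr h0
  have l0 : (0 : ℝ) ≤ l := Nat.cast_nonneg l
  have K0 : 0 ≤ K := le_trans l0 hl
  have κ0 : 0 ≤ κ := le_trans (norm_nonneg _) hκ
  have w10 : 0 ≤ w1 G r := by unfold w1; positivity
  have w0 : 0 ≤ wm G r := wm_nonneg r0
  have a1 : ‖-((2 * l * w1 G r * (deriv (Qr G) r / Qr G r).re : ℝ) : ℂ) * et G f g r‖
      ≤ K * κ * (r ^ 10 * (‖f r‖ + ‖g r‖)) := by
    have b1 : |(deriv (Qr G) r / Qr G r).re| ≤ κ / ‖Qr G r‖ := by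
      refine le_trans (Complex.abs_re_le_norm _) ?_
      rw [norm_div]
      gcongr
    rw [norm_mul, norm_neg, Complex.norm_real, Real.norm_eq_abs, abs_mul,
      abs_of_nonneg (by positivity : 0 ≤ 2 * (l : ℝ) * w1 G r)]
    calc 2 * l * w1 G r * |(deriv (Qr G) r / Qr G r).re| * ‖et G f g r‖
        ≤ 2 * K * w1 G r * (κ / ‖Qr G r‖) * ‖et G f g r‖ := by gcongr
      _ = 2 * K * κ * r ^ 10 * (‖Qr G r‖ * ‖et G f g r‖) := by
          unfold w1
          field_simp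
      _ ≤ 2 * K * κ * r ^ 10 * ((‖f r‖ + ‖g r‖) / 2) := by
          gcongr
          exact et_le h0
      _ = _ := by ring
  have a2 : ‖(((l * w1 G r * vel G r + 2 * (3 - 1 / (2 * (m : ℝ))) * wm G r : ℝ) : ℂ)
      - lam * (wm G r : ℂ)) * al G f g r‖
      ≤ (K * (1 / 2 + 4 * C₀ ^ 2) + 6 + K) * (wm G r * ‖al G f g r‖) := by
    have m1 : (1 : ℝ) ≤ m := by exact_mod_cast hJ.one_le
    have b0 : 0 ≤ 1 / (2 * (m : ℝ)) := by positivity
    have b0' : 1 / (2 * (m : ℝ)) ≤ 1 := by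
      rw [div_le_one (by positivity)]
      linarith
    have b1 : |l * w1 G r * vel G r| ≤ K * (1 / 2 + 4 * C₀ ^ 2) * wm G r := by
      rw [abs_mul, abs_of_nonneg (by positivity : 0 ≤ (l : ℝ) * w1 G r), wm_eq]
      calc l * w1 G r * |vel G r| ≤ K * w1 G r * (r * (1 / 2 + 4 * C₀ ^ 2)) := by
            gcongr
            exact vel_le hG hJ hr
        _ = _ := by ring
    have b2 : |2 * (3 - 1 / (2 * (m : ℝ))) * wm G r| ≤ 6 * wm G r := by
      rw [abs_of_nonneg (mul_nonneg (by linarith) w0)]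
      exact mul_le_mul_of_nonneg_right (by linarith) w0
    have b3 : ‖lam * (wm G r : ℂ)‖ ≤ K * wm G r := by
      rw [norm_mul, Complex.norm_real, Real.norm_of_nonneg w0]
      gcongr
    have b4 : ‖((l * w1 G r * vel G r + 2 * (3 - 1 / (2 * (m : ℝ))) * wm G r : ℝ) : ℂ)
        - lam * (wm G r : ℂ)‖ ≤ (K * (1 / 2 + 4 * C₀ ^ 2) + 6 + K) * wm G r := by
      refine le_trans (norm_sub_le _ _) ?_
      rw [Complex.norm_real, Real.norm_eq_abs]
      have := abs_add_le (l * w1 G r * vel G r) (2 * (3 - 1 / (2 * (m : ℝ))) * wm G r)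
      linarith
    rw [norm_mul, ← mul_assoc]
    gcongr
  have a3 : ‖(wm G r : ℂ) * et G SF SG r‖ ≤ 2 * 4 ^ 11 * ‖et G SF SG r‖ := by
    rw [norm_mul, Complex.norm_real, Real.norm_of_nonneg w0]
    gcongr
    exact wm_le hJ hr
  exact le_trans norm_add₃_le (add_le_add (add_le_add a1 a2) a3)

theorem int_fg_le (l : ℕ) (hf : BddC 30 f) (hg : BddC 30 g) {r₀ : ℝ} (h0 : 0 ≤ r₀) (h4 : r₀ ≤ 4) :
    ∫ r in (0 : ℝ)..r₀, r ^ 10 * (‖f r‖ + ‖g r‖) ≤ 2 * 4 ^ 5 * Real.sqrt (N2 l f g r₀) := by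
  have h1 := hf.smooth.continuous
  have h2 := hg.smooth.continuous
  refine cs_sqrt (M := 2 * 4 ^ 9) h0 (by positivity) (by fun_prop)
    (continuous_nI l hf hg).continuousOn (fun x hx => ?_) (by positivity) (by linarith)
  have x0 := hx.1
  have hL := Lc_nonneg l
  have e1 : x ^ 9 ≤ 4 ^ 9 := pow_le_pow_left₀ x0 (le_trans hx.2 h4) 9
  have e2 : (‖f x‖ + ‖g x‖) ^ 2 ≤ 2 * (‖f x‖ ^ 2 + ‖g x‖ ^ 2) := by
    linarith [sq_nonneg (‖f x‖ - ‖g x‖)]
  have e3 : x ^ 11 * (‖f x‖ ^ 2 + ‖g x‖ ^ 2) ≤ nI l f g x := by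
    rw [nI_eq]
    have p1 : 0 ≤ x ^ 11 * (‖deriv f x‖ ^ 2 + ‖deriv g x‖ ^ 2) := by positivity
    have p2 : 0 ≤ Lc l * x ^ 9 * (‖f x‖ ^ 2 + ‖g x‖ ^ 2) := by positivity
    linarith
  calc (x ^ 10 * (‖f x‖ + ‖g x‖)) ^ 2 = x ^ 9 * (x ^ 11 * (‖f x‖ + ‖g x‖) ^ 2) := by ring
    _ ≤ 4 ^ 9 * (x ^ 11 * (2 * (‖f x‖ ^ 2 + ‖g x‖ ^ 2))) := by gcongr
    _ = 2 * 4 ^ 9 * (x ^ 11 * (‖f x‖ ^ 2 + ‖g x‖ ^ 2)) := by ring
    _ ≤ _ := by gcongr

theorem int_al_le (hG : IsProfile m β G) (hJ : GoodInt m β G C₀ ε ϑ ρb) (hf : BddC 30 f)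
    (hg : BddC 30 g) {r₀ : ℝ} (h0 : 0 ≤ r₀) (h4 : r₀ ≤ 4) :
    ∫ r in (0 : ℝ)..r₀, wm G r * ‖al G f g r‖ ≤ 2 * 4 ^ 6 * Real.sqrt (La G f g r₀) := by
  have sub : Icc (0 : ℝ) r₀ ⊆ Icc 0 4 := Icc_subset_Icc le_rfl h4
  have ca := ((ctl_al hG hJ hf hg).cont.mono sub).norm
  have cw := (continuous_wm hG).continuousOn (s := Icc 0 r₀)
  refine cs_sqrt (M := 2 * 4 ^ 11) h0 (by positivity) (cw.mul ca) (cw.mul (ca.pow 2))
    (fun x hx => ?_) (by positivity) (by linarith)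
  have w0 : 0 ≤ wm G x := wm_nonneg hx.1
  calc (wm G x * ‖al G f g x‖) ^ 2 = wm G x * (wm G x * ‖al G f g x‖ ^ 2) := by ring
    _ ≤ 2 * 4 ^ 11 * (wm G x * ‖al G f g x‖ ^ 2) := by
        gcongr
        exact wm_le hJ (sub hx)

theorem hF_le (hG : IsProfile m β G) (hJ : GoodInt m β G C₀ ε ϑ ρb)
    (h : RSol m β G l lam f g SF SG) (hSF : Continuous SF) (hSG : Continuous SG) {r₀ K κ : ℝ}
    (h1 : 1 ≤ r₀) (h4 : r₀ ≤ 4) (hl : (l : ℝ) ≤ K) (hlam : ‖lam‖ ≤ K)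
    (hκ : ∀ r ∈ Icc 0 r₀, ‖deriv (Qr G) r‖ ≤ κ) :
    ‖hF G l f g r₀‖ ≤ K * κ * (2 * 4 ^ 5 * Real.sqrt (N2 l f g r₀))
      + (K * (1 / 2 + 4 * C₀ ^ 2) + 6 + K) * (2 * 4 ^ 6 * Real.sqrt (La G f g r₀))
      + 2 * 4 ^ 11 * ∫ r in (0 : ℝ)..r₀, ‖et G SF SG r‖ := by
  have h0 : (0 : ℝ) ≤ r₀ := by linarith
  have sub : Icc (0 : ℝ) r₀ ⊆ Icc 0 4 := Icc_subset_Icc le_rfl h4
  have K0 : 0 ≤ K := le_trans (Nat.cast_nonneg l) hl
  have κ0 : 0 ≤ κ := le_trans (norm_nonneg _) (hκ 0 ⟨le_rfl, h0⟩)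
  have cp : ContinuousOn (fun x : ℝ => ((x ^ l : ℝ) : ℂ)) (Icc 0 r₀) := by fun_prop
  have iI : IntervalIntegrable (fun x : ℝ => ((x ^ l : ℝ) : ℂ) * hI m G l lam f g SF SG x)
      volume 0 r₀ :=
    (cp.mul ((contOn_hI hG hJ h.bf h.bg hSF hSG).mono sub)).intervalIntegrable_of_Icc h0
  have ftc := intervalIntegral.integral_eq_sub_of_hasDerivAt_of_le h0
    (cp.mul ((contOn_hF (l := l) hG hJ h.bf h.bg).mono sub))
    (fun x hx => hasDerivAt_hF hG hJ h hx.1 (le_trans hx.2.le h4)) iI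
  have z0 : hF G l f g 0 = 0 := by simp [hF, wm, w1]
  simp only [Pi.mul_apply, z0, mul_zero, sub_zero] at ftc
  have cf := h.bf.smooth.continuous
  have cg := h.bg.smooth.continuous
  have i1 : IntervalIntegrable (fun r : ℝ => r ^ 10 * (‖f r‖ + ‖g r‖)) volume 0 r₀ :=
    Continuous.intervalIntegrable (by fun_prop) _ _
  have i2 : IntervalIntegrable (fun r : ℝ => wm G r * ‖al G f g r‖) volume 0 r₀ :=
    ((continuous_wm hG).continuousOn.mul
      ((ctl_al hG hJ h.bf h.bg).cont.mono sub).norm).intervalIntegrable_of_Icc h0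
  have i3 : IntervalIntegrable (fun r : ℝ => ‖et G SF SG r‖) volume 0 r₀ :=
    ((contOn_et hG hJ hSF hSG).mono sub).norm.intervalIntegrable_of_Icc h0
  have p0 : 0 < r₀ ^ l := by positivity
  have b1 : ‖∫ x in (0 : ℝ)..r₀, ((x ^ l : ℝ) : ℂ) * hI m G l lam f g SF SG x‖
      ≤ ∫ r in (0 : ℝ)..r₀, r₀ ^ l * (K * κ * (r ^ 10 * (‖f r‖ + ‖g r‖))
        + (K * (1 / 2 + 4 * C₀ ^ 2) + 6 + K) * (wm G r * ‖al G f g r‖)
        + 2 * 4 ^ 11 * ‖et G SF SG r‖) := by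
    refine intervalIntegral.norm_integral_le_of_norm_le h0 ?_
      ((((i1.const_mul _).add (i2.const_mul _)).add (i3.const_mul _)).const_mul _)
    refine Eventually.of_forall (fun x hx => ?_)
    have hx' : x ∈ Icc 0 r₀ := Ioc_subset_Icc_self hx
    rw [norm_mul, Complex.norm_real, Real.norm_of_nonneg (pow_nonneg hx'.1 l)]
    exact mul_le_mul (pow_le_pow_left₀ hx'.1 hx'.2 l) (hI_le hG hJ hl hlam (sub hx') (hκ x hx'))
      (norm_nonneg _) p0.le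
  rw [ftc, norm_mul, Complex.norm_real, Real.norm_of_nonneg p0.le,
    intervalIntegral.integral_const_mul,
    intervalIntegral.integral_add ((i1.const_mul _).add (i2.const_mul _)) (i3.const_mul _),
    intervalIntegral.integral_add (i1.const_mul _) (i2.const_mul _),
    intervalIntegral.integral_const_mul, intervalIntegral.integral_const_mul,
    intervalIntegral.integral_const_mul] at b1
  refine le_trans (le_of_mul_le_mul_left b1 p0) ?_
  gcongr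
  · exact int_fg_le l h.bf h.bg h0 h4
  · exact int_al_le hG hJ h.bf h.bg h0 h4

end Vale.Agent.P139Z.IntA
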