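import Vale.Agent.P139Z.IntB

/-! Pointwise bounds for the interior estimates, and the Cauchy-Schwarz inequality. -/

open Set Filter Topology MeasureTheory Complex
open scoped NNReal ENNReal ComplexConjugate ContDiff

namespace Vale.Agent.P139Z.IntA

variable {m : ℕ} {β : ℝ} {G : ℝ → ℂ} {C₀ ε ϑ ρb : ℝ} {l : ℕ} {lam : ℂ} {f g SF SG : ℝ → ℂ}
  {r : ℝ}

theorem sq_mem (hr : r ∈ Icc (0 : ℝ) 4) : r ^ 2 ∈ Icc (0 : ℝ) 16 :=
  ⟨by positivity, by nlinarith [hr.1, hr.2]⟩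

theorem one_le_q (hI : GoodInt m β G C₀ ε ϑ ρb) (hr : r ∈ Icc (0 : ℝ) 4) :
    1 ≤ C₀ * ‖Qr G r‖ := hI.lower _ (sq_mem hr)

theorem ne0 (hI : GoodInt m β G C₀ ε ϑ ρb) (hr : r ∈ Icc (0 : ℝ) 4) : G (r ^ 2) ≠ 0 := by
  intro h
  have := hI.lower _ (sq_mem hr)
  rw [h] at this
  norm_num at this

theorem C0_pos (hI : GoodInt m β G C₀ ε ϑ ρb) : 0 < C₀ := by
  have h := hI.lower 0 ⟨le_rfl, by norm_num⟩
  by_contra hc
  have hc' : C₀ ≤ 0 := not_lt.mp hc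
  nlinarith [norm_nonneg (G 0)]

theorem q_sq_le (hI : GoodInt m β G C₀ ε ϑ ρb) (hr : r ∈ Icc (0 : ℝ) 4) : ‖Qr G r‖ ^ 2 ≤ 2 := by
  have h := hI.upper _ (sq_mem hr)
  have hm := hI.one_le
  change ‖G (r ^ 2)‖ ^ 2 ≤ 2
  rcases le_total ‖G (r ^ 2)‖ 1 with h1 | h1
  · nlinarith [norm_nonneg (G (r ^ 2))]
  · exact le_trans (pow_le_pow_right₀ h1 (by omega)) h

theorem one_le_q_sq (hI : GoodInt m β G C₀ ε ϑ ρb) (hr : r ∈ Icc (0 : ℝ) 4) :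
    1 ≤ C₀ ^ 2 * ‖Qr G r‖ ^ 2 := by
  have h := one_le_q hI hr
  rw [← mul_pow]
  exact one_le_pow₀ h

theorem contDiff_Qr (hG : IsProfile m β G) : ContDiff ℝ ∞ (Qr G) :=
  hG.smooth.comp (contDiff_id.pow 2)

theorem continuous_Qr (hG : IsProfile m β G) : Continuous (Qr G) := (contDiff_Qr hG).continuous

theorem continuous_dQr (hG : IsProfile m β G) : Continuous (deriv (Qr G)) :=
  (contDiff_Qr hG).continuous_deriv (by simp)

theorem hasDerivAt_Qr (hG : IsProfile m β G) (r : ℝ) :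
    HasDerivAt (Qr G) ((2 * r : ℝ) • deriv G (r ^ 2)) r := by
  have h1 : HasDerivAt G (deriv G (r ^ 2)) (r ^ 2) :=
    ((hG.smooth.differentiable (by simp)) _).hasDerivAt
  have h2 : HasDerivAt (fun x : ℝ => x ^ 2) (2 * r) r := by
    simpa using hasDerivAt_pow 2 r
  exact HasDerivAt.scomp (h := fun x : ℝ => x ^ 2) r h1 h2

theorem dQ_le (hG : IsProfile m β G) (hI : GoodInt m β G C₀ ε ϑ ρb) (hr : r ∈ Icc (0 : ℝ) 4) :
    ‖deriv (Qr G) r‖ ≤ 2 * r * C₀ ^ 2 * ‖Qr G r‖ := by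
  rw [(hasDerivAt_Qr hG r).deriv, norm_smul, Real.norm_of_nonneg (by linarith [hr.1])]
  have h1 := hI.deriv_bd _ (sq_mem hr)
  have h2 := one_le_q hI hr
  have h3 := C0_pos hI
  have h4 : ‖deriv G (r ^ 2)‖ ≤ C₀ ^ 2 * ‖Qr G r‖ := by nlinarith
  have h5 : 0 ≤ 2 * r := by linarith [hr.1]
  calc 2 * r * ‖deriv G (r ^ 2)‖ ≤ 2 * r * (C₀ ^ 2 * ‖Qr G r‖) := by gcongr
    _ = _ := by ring

theorem sf_eq (hG : IsProfile m β G) (r : ℝ) :
    sf G (r ^ 2) = r * (deriv (Qr G) r / Qr G r).re := by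
  rw [(hasDerivAt_Qr hG r).deriv, sf, Qr, smul_div_assoc, Complex.smul_re, smul_eq_mul]
  ring

theorem vel_le (hG : IsProfile m β G) (hI : GoodInt m β G C₀ ε ϑ ρb) (hr : r ∈ Icc (0 : ℝ) 4) :
    |vel G r| ≤ r * (1 / 2 + 4 * C₀ ^ 2) := by
  have h0 : Qr G r ≠ 0 := ne0 hI hr
  have hq : 0 < ‖Qr G r‖ := norm_pos_iff.mpr h0
  have h1 : |(deriv (Qr G) r / Qr G r).im| ≤ 2 * r * C₀ ^ 2 := by
    refine le_trans (Complex.abs_im_le_norm _) ?_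
    rw [norm_div, div_le_iff₀ hq]
    exact dQ_le hG hI hr
  have h2 := abs_le.mp h1
  have := hr.1
  rw [vel, abs_le]
  constructor <;> nlinarith

theorem div_bound {u Q : ℝ → ℂ} {u' Q' : ℂ} {k : ℝ} (hu : HasDerivAt u u' r)
    (hQ : HasDerivAt Q Q' r) (h0 : Q r ≠ 0) (hk : ‖Q'‖ ≤ k * ‖Q r‖) :
    ∃ d : ℂ, HasDerivAt (fun x => u x / Q x) d r ∧ ‖Q r‖ * ‖d‖ ≤ ‖u'‖ + k * ‖u r‖ := by
  refine ⟨_, hu.div hQ h0, ?_⟩
  have hq : 0 < ‖Q r‖ := norm_pos_iff.mpr h0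
  have e : ‖Q r‖ * ‖(u' * Q r - u r * Q') / Q r ^ 2‖ = ‖u' * Q r - u r * Q'‖ / ‖Q r‖ := by
    rw [norm_div, norm_pow]
    field_simp
  rw [e, div_le_iff₀ hq]
  calc ‖u' * Q r - u r * Q'‖ ≤ ‖u' * Q r‖ + ‖u r * Q'‖ := norm_sub_le _ _
    _ = ‖u'‖ * ‖Q r‖ + ‖u r‖ * ‖Q'‖ := by rw [norm_mul, norm_mul]
    _ ≤ ‖u'‖ * ‖Q r‖ + ‖u r‖ * (k * ‖Q r‖) := by gcongr
    _ = _ := by ring

/-- A combination of the two relative components with coefficients of size one half. -/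
noncomputable def cmb (a b : ℂ) (G f g : ℝ → ℂ) (r : ℝ) : ℂ :=
  a * (f r / Qr G r) + b * (g r / conj (Qr G r))

theorem al_eq (G f g : ℝ → ℂ) : al G f g = cmb (1 / 2) (1 / 2) G f g := by
  funext r
  simp only [al, cmb]
  ring

theorem et_eq (G f g : ℝ → ℂ) : et G f g = cmb (1 / (2 * I)) (-(1 / (2 * I))) G f g := by
  funext r
  simp only [et, cmb]
  ring

theorem cmb_le {a b : ℂ} (ha : ‖a‖ = 1 / 2) (hb : ‖b‖ = 1 / 2) (h0 : G (r ^ 2) ≠ 0) :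
    ‖Qr G r‖ * ‖cmb a b G f g r‖ ≤ (‖f r‖ + ‖g r‖) / 2 := by
  have hq : 0 < ‖Qr G r‖ := norm_pos_iff.mpr h0
  have h1 : ‖cmb a b G f g r‖ ≤ 1 / 2 * (‖f r‖ / ‖Qr G r‖) + 1 / 2 * (‖g r‖ / ‖Qr G r‖) := by
    refine le_trans (norm_add_le _ _) (le_of_eq ?_)
    rw [norm_mul, norm_mul, ha, hb, norm_div, norm_div, Complex.norm_conj]
  calc ‖Qr G r‖ * ‖cmb a b G f g r‖
      ≤ ‖Qr G r‖ * (1 / 2 * (‖f r‖ / ‖Qr G r‖) + 1 / 2 * (‖g r‖ / ‖Qr G r‖)) := by gcongr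
    _ = _ := by field_simp

theorem hasDerivAt_of_bdd (hf : BddC 30 f) (r : ℝ) : HasDerivAt f (deriv f r) r :=
  ((hf.smooth.differentiable (by norm_num)) r).hasDerivAt

theorem dcmb_le {a b : ℂ} (ha : ‖a‖ = 1 / 2) (hb : ‖b‖ = 1 / 2) (hG : IsProfile m β G)
    (hI : GoodInt m β G C₀ ε ϑ ρb) (hf : BddC 30 f) (hg : BddC 30 g) (hr : r ∈ Icc (0 : ℝ) 4) :
    ‖Qr G r‖ * ‖deriv (cmb a b G f g) r‖
      ≤ (‖deriv f r‖ + ‖deriv g r‖ + 8 * C₀ ^ 2 * (‖f r‖ + ‖g r‖)) / 2 := by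
  have h0 : Qr G r ≠ 0 := ne0 hI hr
  have hQ : HasDerivAt (Qr G) (deriv (Qr G) r) r :=
    (hasDerivAt_Qr hG r).differentiableAt.hasDerivAt
  have hk : ‖deriv (Qr G) r‖ ≤ 8 * C₀ ^ 2 * ‖Qr G r‖ := by
    refine le_trans (dQ_le hG hI hr) ?_
    have : 2 * r ≤ 8 := by linarith [hr.2]
    gcongr
  have hQc : HasDerivAt (fun x => conj (Qr G x)) (conj (deriv (Qr G) r)) r := hQ.star
  obtain ⟨d₁, hd₁, b₁⟩ := div_bound (hasDerivAt_of_bdd hf r) hQ h0 hk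
  obtain ⟨d₂, hd₂, b₂⟩ := div_bound (k := 8 * C₀ ^ 2) (hasDerivAt_of_bdd hg r) hQc
    (by simpa using h0) (by simpa using hk)
  rw [Complex.norm_conj] at b₂
  have hd : HasDerivAt (cmb a b G f g) (a * d₁ + b * d₂) r :=
    (hd₁.const_mul a).add (hd₂.const_mul b)
  rw [hd.deriv]
  have h1 : ‖a * d₁ + b * d₂‖ ≤ 1 / 2 * ‖d₁‖ + 1 / 2 * ‖d₂‖ := by
    refine le_trans (norm_add_le _ _) (le_of_eq ?_)
    rw [norm_mul, norm_mul, ha, hb]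
  calc ‖Qr G r‖ * ‖a * d₁ + b * d₂‖ ≤ ‖Qr G r‖ * (1 / 2 * ‖d₁‖ + 1 / 2 * ‖d₂‖) := by gcongr
    _ = (‖Qr G r‖ * ‖d₁‖ + ‖Qr G r‖ * ‖d₂‖) / 2 := by ring
    _ ≤ _ := by linarith

theorem nh₁ : ‖(1 / 2 : ℂ)‖ = 1 / 2 := by simp

theorem nh₂ : ‖(1 / (2 * I) : ℂ)‖ = 1 / 2 := by simp

theorem nh₃ : ‖(-(1 / (2 * I)) : ℂ)‖ = 1 / 2 := by simp

theorem al_le (h0 : G (r ^ 2) ≠ 0) : ‖Qr G r‖ * ‖al G f g r‖ ≤ (‖f r‖ + ‖g r‖) / 2 := by
  rw [al_eq]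
  exact cmb_le nh₁ nh₁ h0

theorem et_le (h0 : G (r ^ 2) ≠ 0) : ‖Qr G r‖ * ‖et G f g r‖ ≤ (‖f r‖ + ‖g r‖) / 2 := by
  rw [et_eq]
  exact cmb_le nh₂ nh₃ h0

theorem dal_le (hG : IsProfile m β G) (hI : GoodInt m β G C₀ ε ϑ ρb) (hf : BddC 30 f)
    (hg : BddC 30 g) (hr : r ∈ Icc (0 : ℝ) 4) :
    ‖Qr G r‖ * ‖deriv (al G f g) r‖
      ≤ (‖deriv f r‖ + ‖deriv g r‖ + 8 * C₀ ^ 2 * (‖f r‖ + ‖g r‖)) / 2 := by
  rw [al_eq]
  exact dcmb_le nh₁ nh₁ hG hI hf hg hr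

theorem det_le (hG : IsProfile m β G) (hI : GoodInt m β G C₀ ε ϑ ρb) (hf : BddC 30 f)
    (hg : BddC 30 g) (hr : r ∈ Icc (0 : ℝ) 4) :
    ‖Qr G r‖ * ‖deriv (et G f g) r‖
      ≤ (‖deriv f r‖ + ‖deriv g r‖ + 8 * C₀ ^ 2 * (‖f r‖ + ‖g r‖)) / 2 := by
  rw [et_eq]
  exact dcmb_le nh₂ nh₃ hG hI hf hg hr

/-! ### Continuity -/

theorem continuous_wm (hG : IsProfile m β G) : Continuous (wm G) := by
  have := continuous_Qr hG
  unfold wm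
  fun_prop

theorem wm_nonneg (hr : 0 ≤ r) : 0 ≤ wm G r := by
  unfold wm
  positivity

theorem contOn_cmb (a b : ℂ) (hG : IsProfile m β G) (hI : GoodInt m β G C₀ ε ϑ ρb)
    (hf : Continuous f) (hg : Continuous g) : ContinuousOn (cmb a b G f g) (Icc 0 4) := by
  have hQ := continuous_Qr hG
  have h0 : ∀ x ∈ Icc (0 : ℝ) 4, Qr G x ≠ 0 := fun x hx => ne0 hI hx
  have h1 : ContinuousOn (fun x => f x / Qr G x) (Icc 0 4) :=
    hf.continuousOn.div hQ.continuousOn h0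
  have h2 : ContinuousOn (fun x => g x / conj (Qr G x)) (Icc 0 4) :=
    hg.continuousOn.div (Complex.continuous_conj.comp hQ).continuousOn
      (fun x hx => by simpa using h0 x hx)
  exact (continuousOn_const.mul h1).add (continuousOn_const.mul h2)

theorem contOn_al (hG : IsProfile m β G) (hI : GoodInt m β G C₀ ε ϑ ρb)
    (hf : Continuous f) (hg : Continuous g) : ContinuousOn (al G f g) (Icc 0 4) := by
  rw [al_eq]
  exact contOn_cmb _ _ hG hI hf hg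

theorem contOn_et (hG : IsProfile m β G) (hI : GoodInt m β G C₀ ε ϑ ρb)
    (hf : Continuous f) (hg : Continuous g) : ContinuousOn (et G f g) (Icc 0 4) := by
  rw [et_eq]
  exact contOn_cmb _ _ hG hI hf hg

theorem contOn_vel (hG : IsProfile m β G) (hI : GoodInt m β G C₀ ε ϑ ρb) :
    ContinuousOn (vel G) (Icc 0 4) := by
  have h1 : ContinuousOn (fun x => deriv (Qr G) x / Qr G x) (Icc 0 4) :=
    (continuous_dQr hG).continuousOn.div (continuous_Qr hG).continuousOn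
      (fun x hx => ne0 hI hx)
  have h2 : ContinuousOn (fun x => (deriv (Qr G) x / Qr G x).im) (Icc 0 4) :=
    Complex.continuous_im.comp_continuousOn h1
  exact (continuous_id.div_const 2).continuousOn.add (continuousOn_const.mul h2)

theorem continuous_Pf (hG : IsProfile m β G) : Continuous (fun x : ℝ => Pf m G (x ^ 2)) := by
  have := continuous_Qr hG
  change Continuous (fun x : ℝ => 2 * (m : ℝ) * ‖Qr G x‖ ^ (2 * m))
  fun_prop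

/-- First and second derivative of a function of class two. -/
theorem c2_facts {u : ℝ → ℂ} (hu : ContDiffAt ℝ 2 u r) :
    HasDerivAt u (deriv u r) r ∧ HasDerivAt (deriv u) (iteratedDeriv 2 u r) r := by
  refine ⟨(hu.differentiableAt (by norm_num)).hasDerivAt, ?_⟩
  have h1 : ContDiffAt ℝ 1 (deriv u) r := hu.derivWithin (by norm_num)
  rw [show (2 : ℕ) = 1 + 1 from rfl, iteratedDeriv_succ, iteratedDeriv_one]
  exact (h1.differentiableAt (by norm_num)).hasDerivAt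

/-- The integrand of the energy norm. -/
noncomputable def nI (l : ℕ) (f g : ℝ → ℂ) (r : ℝ) : ℝ :=
  r ^ 11 * (‖deriv f r‖ ^ 2 + ‖deriv g r‖ ^ 2 + (Lc l / r ^ 2 + 1) * (‖f r‖ ^ 2 + ‖g r‖ ^ 2))

theorem N2_eq (l : ℕ) (f g : ℝ → ℂ) (r₀ : ℝ) : N2 l f g r₀ = ∫ r in (0 : ℝ)..r₀, nI l f g r := rfl

theorem nI_eq (l : ℕ) (f g : ℝ → ℂ) (r : ℝ) : nI l f g r =
    r ^ 11 * (‖deriv f r‖ ^ 2 + ‖deriv g r‖ ^ 2) + r ^ 11 * (‖f r‖ ^ 2 + ‖g r‖ ^ 2)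
      + Lc l * r ^ 9 * (‖f r‖ ^ 2 + ‖g r‖ ^ 2) := by
  unfold nI
  rcases eq_or_ne r 0 with h | h
  · simp [h]
  · field_simp
    ring

theorem Lc_nonneg (l : ℕ) : 0 ≤ Lc l := by
  unfold Lc
  positivity

theorem continuous_nI (l : ℕ) (hf : BddC 30 f) (hg : BddC 30 g) : Continuous (nI l f g) := by
  have h1 := hf.smooth.continuous
  have h2 := hg.smooth.continuous
  have h3 : Continuous (deriv f) := hf.smooth.continuous_deriv (by norm_num)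
  have h4 : Continuous (deriv g) := hg.smooth.continuous_deriv (by norm_num)
  rw [show nI l f g = _ from funext (nI_eq l f g)]
  fun_prop

theorem nI_nonneg (l : ℕ) (f g : ℝ → ℂ) (hr : 0 ≤ r) : 0 ≤ nI l f g r := by
  have := Lc_nonneg l
  rw [nI_eq]
  positivity

theorem N2_nonneg (l : ℕ) (f g : ℝ → ℂ) (hr : 0 ≤ r) : 0 ≤ N2 l f g r :=
  intervalIntegral.integral_nonneg hr (fun _ hx => nI_nonneg l f g hx.1)

theorem L2_nonneg (f g : ℝ → ℂ) (hr : 0 ≤ r) : 0 ≤ L2 f g r :=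
  intervalIntegral.integral_nonneg hr (fun x hx => by have := hx.1; positivity)

theorem La_nonneg (G f g : ℝ → ℂ) (hr : 0 ≤ r) : 0 ≤ La G f g r :=
  intervalIntegral.integral_nonneg hr
    (fun x hx => mul_nonneg (wm_nonneg hx.1) (by positivity))

theorem bd1_nonneg (f g : ℝ → ℂ) (r : ℝ) : 0 ≤ bd1 f g r := by
  unfold bd1
  positivity

/-- The Cauchy-Schwarz inequality on an interval. -/
theorem cs_sq {a b M : ℝ} (hab : a ≤ b) {φ ψ : ℝ → ℝ} (hφ : ContinuousOn φ (Icc a b))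
    (hψ : ContinuousOn ψ (Icc a b)) (h : ∀ x ∈ Icc a b, φ x ^ 2 ≤ M * ψ x) :
    (∫ x in a..b, φ x) ^ 2 ≤ (b - a) * (M * ∫ x in a..b, ψ x) := by
  rcases hab.eq_or_lt with h0 | h0
  · subst h0
    simp
  have iφ : IntervalIntegrable φ volume a b := hφ.intervalIntegrable_of_Icc hab
  have iψ : IntervalIntegrable ψ volume a b := hψ.intervalIntegrable_of_Icc hab
  set X := ∫ x in a..b, φ x with hX
  set t := X / (b - a) with ht
  have hd : 0 < b - a := sub_pos.mpr h0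
  have h1 : ∫ x in a..b, (2 * t * φ x - t ^ 2) ≤ ∫ x in a..b, M * ψ x := by
    refine intervalIntegral.integral_mono_on hab ((iφ.const_mul _).sub intervalIntegrable_const)
      (iψ.const_mul _) (fun x hx => ?_)
    nlinarith [h x hx, sq_nonneg (φ x - t)]
  rw [intervalIntegral.integral_sub (iφ.const_mul _) intervalIntegrable_const,
    intervalIntegral.integral_const_mul, intervalIntegral.integral_const_mul,
    intervalIntegral.integral_const, smul_eq_mul, ← hX] at h1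
  have h2 : X = t * (b - a) := by rw [ht]; field_simp
  have h3 : X ^ 2 = (b - a) * (2 * t * X - (b - a) * t ^ 2) := by rw [h2]; ring
  rw [h3]
  exact mul_le_mul_of_nonneg_left h1 hd.le

theorem cs_sqrt {a b M : ℝ} (hab : a ≤ b) (hM : 0 ≤ M) {φ ψ : ℝ → ℝ}
    (hφ : ContinuousOn φ (Icc a b)) (hψ : ContinuousOn ψ (Icc a b))
    (h : ∀ x ∈ Icc a b, φ x ^ 2 ≤ M * ψ x) {D : ℝ} (hD : 0 ≤ D) (hD2 : (b - a) * M ≤ D ^ 2) :
    ∫ x in a..b, φ x ≤ D * Real.sqrt (∫ x in a..b, ψ x) := by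
  have h1 := cs_sq hab hφ hψ h
  rw [← mul_assoc] at h1
  have hd : 0 ≤ (b - a) * M := mul_nonneg (sub_nonneg.mpr hab) hM
  calc ∫ x in a..b, φ x ≤ Real.sqrt ((b - a) * M * ∫ x in a..b, ψ x) :=
        Real.le_sqrt_of_sq_le h1
    _ = Real.sqrt ((b - a) * M) * Real.sqrt (∫ x in a..b, ψ x) := Real.sqrt_mul hd _
    _ ≤ _ := by
        gcongr
        exact Real.sqrt_le_iff.mpr ⟨hD, hD2⟩

end Vale.Agent.P139Z.IntA
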