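import Vale.Agent.P139Z.IntA.Base

/-! Testing one equation of the system with a controlled function. -/

open Set Filter Topology MeasureTheory Complex
open scoped NNReal ENNReal ComplexConjugate ContDiff

namespace Vale.Agent.P139Z.IntA

variable {m : ℕ} {β : ℝ} {G : ℝ → ℂ} {C₀ ε ϑ ρb : ℝ} {l : ℕ} {lam : ℂ} {f g SF SG : ℝ → ℂ}
  {r : ℝ}

/-- A function controlled by the pair `f`, `g` on `[0, 4]`. -/
structure Ctl (G f g : ℝ → ℂ) (k : ℝ) (u : ℝ → ℂ) : Prop where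
  c2 : ∀ r ∈ Icc (0 : ℝ) 4, ContDiffAt ℝ 2 u r
  b0 : ∀ r ∈ Icc (0 : ℝ) 4, ‖Qr G r‖ * ‖u r‖ ≤ (‖f r‖ + ‖g r‖) / 2
  b1 : ∀ r ∈ Icc (0 : ℝ) 4,
    ‖Qr G r‖ * ‖deriv u r‖ ≤ (‖deriv f r‖ + ‖deriv g r‖ + k * (‖f r‖ + ‖g r‖)) / 2

theorem ctl_al (hG : IsProfile m β G) (hI : GoodInt m β G C₀ ε ϑ ρb) (hf : BddC 30 f)
    (hg : BddC 30 g) : Ctl G f g (8 * C₀ ^ 2) (al G f g) :=
  ⟨fun _ hr => (contDiffAt_al hG hf hg (ne0 hI hr)).1, fun _ hr => al_le (ne0 hI hr),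
    fun _ hr => dal_le hG hI hf hg hr⟩

theorem ctl_et (hG : IsProfile m β G) (hI : GoodInt m β G C₀ ε ϑ ρb) (hf : BddC 30 f)
    (hg : BddC 30 g) : Ctl G f g (8 * C₀ ^ 2) (et G f g) :=
  ⟨fun _ hr => (contDiffAt_al hG hf hg (ne0 hI hr)).2, fun _ hr => et_le (ne0 hI hr),
    fun _ hr => det_le hG hI hf hg hr⟩

theorem Ctl.cont {k : ℝ} {u : ℝ → ℂ} (h : Ctl G f g k u) : ContinuousOn u (Icc 0 4) :=
  fun x hx => (c2_facts (h.c2 x hx)).1.continuousAt.continuousWithinAt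

theorem Ctl.cont' {k : ℝ} {u : ℝ → ℂ} (h : Ctl G f g k u) : ContinuousOn (deriv u) (Icc 0 4) :=
  fun x hx => (c2_facts (h.c2 x hx)).2.continuousAt.continuousWithinAt

theorem real_aux {a b a' b' c d k U0 Z0 U1 Z1 P1 S0 v : ℝ} (ha : 0 ≤ a) (hb : 0 ≤ b)
    (ha' : 0 ≤ a') (hb' : 0 ≤ b') (hc : 0 ≤ c) (hd : 0 ≤ d) (hk : 0 ≤ k)
    (hZ0 : 0 ≤ Z0) (hZ1 : 0 ≤ Z1) (hP1 : 0 ≤ P1)
    (bU0 : U0 ≤ (a + b) / 2) (bZ0 : Z0 ≤ (a + b) / 2) (bU1 : U1 ≤ (a' + b' + k * (a + b)) / 2)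
    (bZ1 : Z1 ≤ (a' + b' + k * (a + b)) / 2) (bP1 : P1 ≤ (a' + b' + k * (a + b)) / 2)
    (bS0 : S0 ≤ (c + d) / 2) (bv : v ≤ 2 + 2 * k) :
    U0 * Z0 ≤ a ^ 2 + b ^ 2 ∧
      v * (P1 * Z0) + S0 * Z0 + U1 * Z1
        ≤ 3 * (1 + k) ^ 2 * ((a' ^ 2 + b' ^ 2) + (a ^ 2 + b ^ 2) + (c ^ 2 + d ^ 2)) := by
  set x := a + b with hx
  set y := a' + b' with hy
  set z := c + d with hz
  set n0 := a ^ 2 + b ^ 2 with hn0
  set n1 := a' ^ 2 + b' ^ 2 with hn1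
  set n2 := c ^ 2 + d ^ 2 with hn2
  have x0 : 0 ≤ x := by positivity
  have y0 : 0 ≤ y := by positivity
  have z0 : 0 ≤ z := by positivity
  have p0 : 0 ≤ n0 := by positivity
  have p1 : 0 ≤ n1 := by positivity
  have p2 : 0 ≤ n2 := by positivity
  have x2 : x ^ 2 ≤ 2 * n0 := by rw [hx, hn0]; nlinarith [sq_nonneg (a - b)]
  have y2 : y ^ 2 ≤ 2 * n1 := by rw [hy, hn1]; nlinarith [sq_nonneg (a' - b')]
  have z2 : z ^ 2 ≤ 2 * n2 := by rw [hz, hn2]; nlinarith [sq_nonneg (c - d)]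
  clear_value x y z n0 n1 n2
  have xy : x * y ≤ n0 + n1 := by linarith [sq_nonneg (x - y)]
  have xz : x * z ≤ n0 + n2 := by linarith [sq_nonneg (x - z)]
  have e1 : U0 * Z0 ≤ x / 2 * (x / 2) := mul_le_mul bU0 bZ0 hZ0 (by positivity)
  have e2 : P1 * Z0 ≤ (y + k * x) / 2 * (x / 2) := mul_le_mul bP1 bZ0 hZ0 (by positivity)
  have e3 : S0 * Z0 ≤ z / 2 * (x / 2) := mul_le_mul bS0 bZ0 hZ0 (by positivity)
  have e4 : U1 * Z1 ≤ (y + k * x) / 2 * ((y + k * x) / 2) := mul_le_mul bU1 bZ1 hZ1 (by positivity)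
  have kx : k * x ^ 2 ≤ k * (2 * n0) := mul_le_mul_of_nonneg_left x2 hk
  have kn1 : 0 ≤ k * n1 := by positivity
  have kn0 : 0 ≤ k * n0 := by positivity
  have f2 : P1 * Z0 ≤ (1 + k) / 2 * (n1 + n0) := by linarith
  have f2' : v * (P1 * Z0) ≤ (2 + 2 * k) * ((1 + k) / 2 * (n1 + n0)) :=
    mul_le_mul bv f2 (by positivity) (by positivity)
  have f3 : S0 * Z0 ≤ n0 + n2 := by linarith
  have kkx : k ^ 2 * x ^ 2 ≤ k ^ 2 * (2 * n0) := mul_le_mul_of_nonneg_left x2 (by positivity)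
  have f4 : U1 * Z1 ≤ n1 + k ^ 2 * n0 := by linarith [sq_nonneg (y - k * x)]
  have g1 : 1 ≤ (1 + k) ^ 2 := by linarith [sq_nonneg k]
  have g2 : k ^ 2 ≤ (1 + k) ^ 2 := by linarith
  have g3 : n1 ≤ (1 + k) ^ 2 * n1 := le_mul_of_one_le_left p1 g1
  have g4 : n0 ≤ (1 + k) ^ 2 * n0 := le_mul_of_one_le_left p0 g1
  have g5 : n2 ≤ (1 + k) ^ 2 * n2 := le_mul_of_one_le_left p2 g1
  have g6 : k ^ 2 * n0 ≤ (1 + k) ^ 2 * n0 := mul_le_mul_of_nonneg_right g2 p0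
  have g7 : 0 ≤ (1 + k) ^ 2 * n1 := by positivity
  have g8 : 0 ≤ (1 + k) ^ 2 * n2 := by positivity
  refine ⟨by linarith, ?_⟩
  linarith

/-- The remainder in the tested equation. -/
noncomputable def Rem (G : ℝ → ℂ) (l : ℕ) (σ : ℂ) (u z p S : ℝ → ℂ) (x : ℝ) : ℂ :=
  ((Lc l * x ^ 9 * ‖Qr G x‖ ^ 2 : ℝ) : ℂ) * (u x * conj (z x))
    + (wm G x : ℂ) * (-(σ * (vel G x : ℂ) * (deriv p x * conj (z x))) + S x * conj (z x)
      + deriv u x * conj (deriv z x))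

theorem rem_le (hG : IsProfile m β G) (hI : GoodInt m β G C₀ ε ϑ ρb) {u z p S : ℝ → ℂ} {σ : ℂ}
    (hσ : ‖σ‖ = 1) (hu : Ctl G f g (8 * C₀ ^ 2) u) (hz : Ctl G f g (8 * C₀ ^ 2) z)
    (hp : Ctl G f g (8 * C₀ ^ 2) p) (hr : r ∈ Icc (0 : ℝ) 4)
    (bS : ‖Qr G r‖ * ‖S r‖ ≤ (‖SF r‖ + ‖SG r‖) / 2) :
    ‖Rem G l σ u z p S r‖
      ≤ 3 * (1 + 8 * C₀ ^ 2) ^ 2 * (nI l f g r + r ^ 11 * (‖SF r‖ ^ 2 + ‖SG r‖ ^ 2)) := by
  have r0 := hr.1
  have hL := Lc_nonneg l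
  have bv : |vel G r| ≤ 2 + 2 * (8 * C₀ ^ 2) := by
    refine le_trans (vel_le hG hI hr) ?_
    nlinarith [hr.2, sq_nonneg C₀]
  obtain ⟨h1, h2⟩ := real_aux (norm_nonneg (f r)) (norm_nonneg (g r)) (norm_nonneg (deriv f r))
    (norm_nonneg (deriv g r)) (norm_nonneg (SF r)) (norm_nonneg (SG r))
    (k := 8 * C₀ ^ 2) (by positivity) (by positivity) (by positivity) (by positivity)
    (hu.b0 r hr) (hz.b0 r hr) (hu.b1 r hr) (hz.b1 r hr) (hp.b1 r hr) bS bv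
  have n1 : ‖((Lc l * r ^ 9 * ‖Qr G r‖ ^ 2 : ℝ) : ℂ) * (u r * conj (z r))‖
      = Lc l * r ^ 9 * (‖Qr G r‖ * ‖u r‖ * (‖Qr G r‖ * ‖z r‖)) := by
    rw [norm_mul, norm_mul, Complex.norm_real, Real.norm_of_nonneg (by positivity),
      Complex.norm_conj]
    ring
  have n2 : ‖-(σ * (vel G r : ℂ) * (deriv p r * conj (z r))) + S r * conj (z r)
      + deriv u r * conj (deriv z r)‖ ≤ |vel G r| * (‖deriv p r‖ * ‖z r‖) + ‖S r‖ * ‖z r‖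
        + ‖deriv u r‖ * ‖deriv z r‖ := by
    refine le_trans (norm_add₃_le) (le_of_eq ?_)
    simp only [norm_neg, norm_mul, hσ, Complex.norm_conj, Complex.norm_real, Real.norm_eq_abs,
      one_mul]
  have n3 : ‖(wm G r : ℂ) * (-(σ * (vel G r : ℂ) * (deriv p r * conj (z r))) + S r * conj (z r)
      + deriv u r * conj (deriv z r))‖ ≤ r ^ 11 * (|vel G r| * (‖Qr G r‖ * ‖deriv p r‖
        * (‖Qr G r‖ * ‖z r‖)) + ‖Qr G r‖ * ‖S r‖ * (‖Qr G r‖ * ‖z r‖)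
        + ‖Qr G r‖ * ‖deriv u r‖ * (‖Qr G r‖ * ‖deriv z r‖)) := by
    rw [norm_mul, Complex.norm_real, Real.norm_of_nonneg (wm_nonneg r0)]
    refine le_trans (mul_le_mul_of_nonneg_left n2 (wm_nonneg r0)) (le_of_eq ?_)
    unfold wm
    ring
  have g1 : 1 ≤ 3 * (1 + 8 * C₀ ^ 2) ^ 2 := by nlinarith [sq_nonneg C₀, sq_nonneg (C₀ ^ 2)]
  have m1 : Lc l * r ^ 9 * (‖Qr G r‖ * ‖u r‖ * (‖Qr G r‖ * ‖z r‖))
      ≤ 3 * (1 + 8 * C₀ ^ 2) ^ 2 * (Lc l * r ^ 9 * (‖f r‖ ^ 2 + ‖g r‖ ^ 2)) :=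
    le_trans (mul_le_mul_of_nonneg_left h1 (by positivity))
      (le_mul_of_one_le_left (by positivity) g1)
  have m2 := mul_le_mul_of_nonneg_left h2 (show 0 ≤ r ^ 11 by positivity)
  refine le_trans (norm_add_le _ _) ?_
  rw [n1, nI_eq]
  refine le_trans (add_le_add m1 (le_trans n3 m2)) (le_of_eq ?_)
  ring

theorem contOn_rem (hG : IsProfile m β G) (hI : GoodInt m β G C₀ ε ϑ ρb) {u z p S : ℝ → ℂ}
    (σ : ℂ) {k : ℝ} (hu : Ctl G f g k u) (hz : Ctl G f g k z) (hp : Ctl G f g k p)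
    (hS : ContinuousOn S (Icc 0 4)) : ContinuousOn (Rem G l σ u z p S) (Icc 0 4) := by
  have h1 := hu.cont
  have h2 := hu.cont'
  have h3 : ContinuousOn (fun x => conj (z x)) (Icc 0 4) :=
    Complex.continuous_conj.comp_continuousOn hz.cont
  have h4 : ContinuousOn (fun x => conj (deriv z x)) (Icc 0 4) :=
    Complex.continuous_conj.comp_continuousOn hz.cont'
  have h5 := hp.cont'
  have h6 : ContinuousOn (fun x => (vel G x : ℂ)) (Icc 0 4) :=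
    Complex.continuous_ofReal.comp_continuousOn (contOn_vel hG hI)
  have h7 : ContinuousOn (fun x => (wm G x : ℂ)) (Icc 0 4) :=
    (Complex.continuous_ofReal.comp (continuous_wm hG)).continuousOn
  have hQ := continuous_Qr hG
  have h8 : ContinuousOn (fun x : ℝ => ((Lc l * x ^ 9 * ‖Qr G x‖ ^ 2 : ℝ) : ℂ)) (Icc 0 4) := by
    fun_prop
  exact (h8.mul (h1.mul h3)).add (h7.mul
    (((((continuousOn_const.mul h6).mul (h5.mul h3)).neg).add (hS.mul h3)).add (h2.mul h4)))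

theorem test (hG : IsProfile m β G) (hI : GoodInt m β G C₀ ε ϑ ρb) (hf : BddC 30 f)
    (hg : BddC 30 g) (hSF : Continuous SF) (hSG : Continuous SG) {u z p M S : ℝ → ℂ} {σ : ℂ}
    (hσ : ‖σ‖ = 1) (hu : Ctl G f g (8 * C₀ ^ 2) u) (hz : Ctl G f g (8 * C₀ ^ 2) z)
    (hp : Ctl G f g (8 * C₀ ^ 2) p) (hM : ContinuousOn M (Icc 0 4))
    (hS : ContinuousOn S (Icc 0 4))
    (bS : ∀ r ∈ Icc (0 : ℝ) 4, ‖Qr G r‖ * ‖S r‖ ≤ (‖SF r‖ + ‖SG r‖) / 2)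
    (he : ∀ r ∈ Ioo (0 : ℝ) 4, iteratedDeriv 2 u r
      + (((11 + 2 * sf G (r ^ 2)) / r : ℝ) : ℂ) * deriv u r - ((Lc l / r ^ 2 : ℝ) : ℂ) * u r
      + M r + σ * (vel G r : ℂ) * deriv p r = S r)
    {r₀ : ℝ} (h1 : 1 ≤ r₀) (h4 : r₀ ≤ 4) :
    ‖∫ r in (0 : ℝ)..r₀, (wm G r : ℂ) * (M r * conj (z r))‖
      ≤ 4 ^ 10 * (1 + 8 * C₀ ^ 2) ^ 2 * (N2 l f g r₀ + bd1 f g r₀ + L2 SF SG r₀) := by
  have h0 : (0 : ℝ) ≤ r₀ := by linarith
  have sub : Icc (0 : ℝ) r₀ ⊆ Icc 0 4 := Icc_subset_Icc le_rfl h4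
  have cz : ContinuousOn (fun x => conj (z x)) (Icc 0 4) :=
    Complex.continuous_conj.comp_continuousOn hz.cont
  have cw : ContinuousOn (fun x => (wm G x : ℂ)) (Icc 0 4) :=
    (Complex.continuous_ofReal.comp (continuous_wm hG)).continuousOn
  have cR := contOn_rem (l := l) hG hI σ hu hz hp hS
  have iR : IntervalIntegrable (Rem G l σ u z p S) volume 0 r₀ :=
    (cR.mono sub).intervalIntegrable_of_Icc h0
  have iM : IntervalIntegrable (fun r => (wm G r : ℂ) * (M r * conj (z r))) volume 0 r₀ :=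
    ((cw.mul (hM.mul cz)).mono sub).intervalIntegrable_of_Icc h0
  have cΦ : ContinuousOn (fun x => (wm G x : ℂ) * (deriv u x * conj (z x))) (Icc 0 r₀) :=
    (cw.mul (hu.cont'.mul cz)).mono sub
  have dΦ : ∀ x ∈ Ioo (0 : ℝ) r₀, HasDerivAt (fun x => (wm G x : ℂ) * (deriv u x * conj (z x)))
      (Rem G l σ u z p S x - (wm G x : ℂ) * (M x * conj (z x))) x := by
    intro x hx
    have hx4 : x ∈ Icc (0 : ℝ) 4 := sub (Ioo_subset_Icc_self hx)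
    have dw := (hasDerivAt_wm hG hx.1 (ne0 hI hx4)).ofReal_comp
    have du := (c2_facts (hu.c2 x hx4)).2
    have dz : HasDerivAt (fun x => conj (z x)) (conj (deriv z x)) x :=
      (c2_facts (hz.c2 x hx4)).1.star
    have e := he x ⟨hx.1, lt_of_lt_of_le hx.2 h4⟩
    have e2 : ((Lc l * x ^ 9 * ‖Qr G x‖ ^ 2 : ℝ) : ℂ)
        = (wm G x : ℂ) * ((Lc l / x ^ 2 : ℝ) : ℂ) := by
      rw [← Complex.ofReal_mul]
      congr 1
      have := hx.1.ne'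
      unfold wm
      field_simp
    refine (dw.fun_mul (du.fun_mul dz)).congr_deriv ?_
    rw [Rem, e2, ← e, Complex.ofReal_mul]
    ring
  have ftc := intervalIntegral.integral_eq_sub_of_hasDerivAt_of_le h0 cΦ dΦ (iR.sub iM)
  rw [intervalIntegral.integral_sub iR iM] at ftc
  have w0 : wm G 0 = 0 := by simp [wm]
  have key : ∫ r in (0 : ℝ)..r₀, (wm G r : ℂ) * (M r * conj (z r))
      = (∫ r in (0 : ℝ)..r₀, Rem G l σ u z p S r)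
        - (wm G r₀ : ℂ) * (deriv u r₀ * conj (z r₀)) := by
    rw [w0, Complex.ofReal_zero, zero_mul] at ftc
    linear_combination -ftc
  have cS : Continuous fun r : ℝ => r ^ 11 * (‖SF r‖ ^ 2 + ‖SG r‖ ^ 2) := by fun_prop
  have b1 : ‖∫ r in (0 : ℝ)..r₀, Rem G l σ u z p S r‖
      ≤ 3 * (1 + 8 * C₀ ^ 2) ^ 2 * (N2 l f g r₀ + L2 SF SG r₀) := by
    rw [N2_eq, L2, ← intervalIntegral.integral_add ((continuous_nI l hf hg).intervalIntegrable _ _)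
      (cS.intervalIntegrable _ _), ← intervalIntegral.integral_const_mul]
    refine intervalIntegral.norm_integral_le_of_norm_le h0 ?_
      ((continuous_const.mul ((continuous_nI l hf hg).add cS)).intervalIntegrable _ _)
    refine Eventually.of_forall (fun x hx => ?_)
    have hx4 : x ∈ Icc (0 : ℝ) 4 := sub (Ioc_subset_Icc_self hx)
    exact rem_le hG hI hσ hu hz hp hx4 (bS x hx4)
  have hr4 : r₀ ∈ Icc (0 : ℝ) 4 := ⟨h0, h4⟩
  have b2 : ‖(wm G r₀ : ℂ) * (deriv u r₀ * conj (z r₀))‖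
      ≤ 4 ^ 10 * (1 + 8 * C₀ ^ 2) ^ 2 * bd1 f g r₀ := by
    rw [norm_mul, norm_mul, Complex.norm_real, Real.norm_of_nonneg (wm_nonneg h0),
      Complex.norm_conj]
    have e1 := mul_le_mul (hu.b1 r₀ hr4) (hz.b0 r₀ hr4) (by positivity) (by positivity)
    have e2 : r₀ ^ 11 ≤ 4 ^ 11 := pow_le_pow_left₀ h0 h4 11
    have e3 := mul_le_mul e2 e1 (by positivity) (by positivity)
    have e4 : wm G r₀ * (‖deriv u r₀‖ * ‖z r₀‖)
        = r₀ ^ 11 * (‖Qr G r₀‖ * ‖deriv u r₀‖ * (‖Qr G r₀‖ * ‖z r₀‖)) := by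
      unfold wm
      ring
    rw [e4]
    refine le_trans e3 ?_
    unfold bd1
    set k := 8 * C₀ ^ 2 with hk
    have k0 : 0 ≤ k := by positivity
    set x := ‖f r₀‖ + ‖g r₀‖ with hx
    have x0 : 0 ≤ x := by positivity
    have e5 : x + ‖deriv f r₀‖ + ‖deriv g r₀‖ = x + (‖deriv f r₀‖ + ‖deriv g r₀‖) := by ring
    rw [e5]
    set y := ‖deriv f r₀‖ + ‖deriv g r₀‖ with hy
    have y0 : 0 ≤ y := by positivity
    clear_value k x y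
    have e6 : y + k * x ≤ (1 + k) ^ 2 * (x + y) := by
      nlinarith [mul_nonneg k0 x0, mul_nonneg k0 y0, mul_nonneg (mul_nonneg k0 k0) x0,
        mul_nonneg (mul_nonneg k0 k0) y0]
    have e7 := mul_le_mul_of_nonneg_right e6 x0
    nlinarith
  rw [key]
  refine le_trans (norm_sub_le _ _) (le_trans (add_le_add b1 b2) ?_)
  have p1 := N2_nonneg l f g h0
  have p2 := L2_nonneg SF SG h0
  have p3 : 0 ≤ (1 + 8 * C₀ ^ 2) ^ 2 * (N2 l f g r₀ + L2 SF SG r₀) := by positivity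
  nlinarith

end Vale.Agent.P139Z.IntA
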